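import Vale.Agent.P144Z.B4.Pre
import Vale.Agent.P144Z.B2.Main

/-!
# The cluster expansion and the Lipschitz bound of its nonlinear part
-/

namespace Vale.Agent.P144Z

open Finset

variable {P : Type} [Fintype P] [DecidableEq P]
variable {𝒜 𝒜' : Type} [NormedCommRing 𝒜] [NormedAlgebra ℝ 𝒜] [FiniteDimensional ℝ 𝒜]
  [NormedCommRing 𝒜'] [NormedAlgebra ℝ 𝒜'] [FiniteDimensional ℝ 𝒜']

/-- B4: the cluster expansion. -/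
theorem cl_main (hinj : Function.Injective (NormedSpace.exp : 𝒜' → 𝒜')) (Z : Size P)
    (L : LocSys P 𝒜) (L' : LocSys P 𝒜') {κ τ ε : ℝ} (hκ : 0 ≤ κ) (hτ : 0 ≤ τ)
    {E : 𝒜 →ₗ[ℝ] 𝒜'} (hE : IsExp Z L L' κ E) {H : Finset P → 𝒜} (h0 : H ∅ = 0)
    (hH : ∀ X, H X ∈ L.sub X) (hε : ε ≤ 1 / 16)
    (hle : Z.Le (τ + κ + 2) (fun X => L.p X (H X)) ε) :
    Cl E H ∅ = 0 ∧ (∀ U, Cl E H U ∈ L'.sub U) ∧ Z.Le τ (fun U => L'.p U (Cl E H U)) (4 * ε) ∧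
      ∀ Λ : Finset P, NormedSpace.exp (∑ U ∈ Λ.powerset, Cl E H U) =
        E (NormedSpace.exp (∑ X ∈ Λ.powerset, H X)) :=
  B4.cl_main_of hinj Z L' hτ hε (mayer Z L L' hκ hτ hE h0 hH hε hle)

/-- B4: the nonlinear part is Lipschitz with a small constant. -/
theorem cl_rem (hinj : Function.Injective (NormedSpace.exp : 𝒜' → 𝒜')) (Z : Size P)
    (L : LocSys P 𝒜) (L' : LocSys P 𝒜') {κ τ ε ε' : ℝ} (hκ : 0 ≤ κ) (hτ : 0 ≤ τ)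
    {E : 𝒜 →ₗ[ℝ] 𝒜'} (hE : IsExp Z L L' κ E) {H H' : Finset P → 𝒜} (h0 : H ∅ = 0)
    (h0' : H' ∅ = 0) (hH : ∀ X, H X ∈ L.sub X) (hH' : ∀ X, H' X ∈ L.sub X) (hε : ε ≤ 1 / 48)
    (hle : Z.Le (τ + κ + 2) (fun X => L.p X (H X)) ε)
    (hle' : Z.Le (τ + κ + 2) (fun X => L.p X (H' X)) ε)
    (hd : Z.Le (τ + κ + 2) (fun X => L.p X (H X - H' X)) ε') :
    Z.Le τ (fun U => L'.p U ((Cl E H U - E (H U)) - (Cl E H' U - E (H' U)))) (1000 * ε * ε') :=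
  B4.cl_rem_of (fun _ _ _ _ _ _ _ _ hinj Z L L' _ _ _ hκ hτ _ hE _ h0 hH hε hle =>
    cl_main hinj Z L L' hκ hτ hE h0 hH hε hle) hinj Z L L' hκ hτ hE h0 h0' hH hH' hε hle hle' hd

end Vale.Agent.P144Z
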