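import Vale.Agent.P144Z.B4.Rem
import Vale.Agent.P144Z.B1.Main

/-!
# The cluster expansion from the Mayer expansion
-/

namespace Vale.Agent.P144Z.B4

open Finset

variable {P : Type} [Fintype P] [DecidableEq P]
variable {𝒜 𝒜' : Type} [NormedCommRing 𝒜] [NormedAlgebra ℝ 𝒜]
  [NormedCommRing 𝒜'] [NormedAlgebra ℝ 𝒜'] [FiniteDimensional ℝ 𝒜']

open Classical in
theorem cl_main_of (hinj : Function.Injective (NormedSpace.exp : 𝒜' → 𝒜')) (Z : Size P)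
    (L' : LocSys P 𝒜') {τ ε : ℝ} (hτ : 0 ≤ τ)
    {E : 𝒜 →ₗ[ℝ] 𝒜'} {H : Finset P → 𝒜} (hε : ε ≤ 1 / 16)
    (hm : ∃ φ : Finset P → 𝒜', φ ∅ = 0 ∧ (∀ Y, φ Y ∈ L'.sub Y) ∧
      Z.Le (τ + 1) (fun Y => L'.p Y (φ Y)) (2 * ε) ∧
      ∀ Λ : Finset P, E (NormedSpace.exp (∑ X ∈ Λ.powerset, H X)) =
        ∑ 𝒴 ∈ Λ.powerset.powerset.filter
          (fun 𝒴 => ∀ Y ∈ 𝒴, ∀ Y' ∈ 𝒴, Y ≠ Y' → ¬ Z.touch Y Y'), ∏ Y ∈ 𝒴, φ Y) :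
    Cl E H ∅ = 0 ∧ (∀ U, Cl E H U ∈ L'.sub U) ∧ Z.Le τ (fun U => L'.p U (Cl E H U)) (4 * ε) ∧
      ∀ Λ : Finset P, NormedSpace.exp (∑ U ∈ Λ.powerset, Cl E H U) =
        E (NormedSpace.exp (∑ X ∈ Λ.powerset, H X)) := by
  obtain ⟨φ, h0, hφ, hle, hid⟩ := hm
  obtain ⟨G, g0, gm, gl, gid⟩ := kp hinj Z L' hτ h0 hφ (by linarith : 2 * ε ≤ 1 / 8) hle
  have h1 : Cl E H = G :=
    funext fun U => Cl_unique hinj E H G fun Λ _ => by rw [gid Λ, hid Λ]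
  rw [h1]
  refine ⟨g0, gm, ?_, fun Λ => by rw [gid Λ, hid Λ]⟩
  rw [show 4 * ε = 2 * (2 * ε) by ring]
  exact gl

end Vale.Agent.P144Z.B4
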