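import Vale.Agent.P144Z.B3.Main

/-!
# The nonlinear part of the cluster expansion is Lipschitz with a small constant
-/

namespace Vale.Agent.P144Z.B4

open Finset KP B3 TrivSqZeroExt

variable {P : Type} [DecidableEq P]
variable {𝒜 𝒜' : Type} [NormedCommRing 𝒜] [NormedAlgebra ℝ 𝒜] [NormedCommRing 𝒜']
  [NormedAlgebra ℝ 𝒜']

theorem Cl_eq_mu (E : 𝒜 →ₗ[ℝ] 𝒜') (H : Finset P → 𝒜) (U : Finset P) :
    Cl E H U = mu (fun U' => P144Z.lg (E (NormedSpace.exp (∑ X ∈ U'.powerset, H X)))) U := by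
  refine sum_congr rfl fun U' _ => ?_
  rw [Algebra.smul_def, map_pow, map_neg, map_one]

omit [NormedAlgebra ℝ 𝒜'] in
theorem lg_exp (hinj : Function.Injective (NormedSpace.exp : 𝒜' → 𝒜')) (x : 𝒜') :
    P144Z.lg (NormedSpace.exp x) = x := by
  have h : ∃ g, NormedSpace.exp g = NormedSpace.exp x := ⟨x, rfl⟩
  rw [P144Z.lg, dif_pos h]
  exact hinj h.choose_spec

/-- The localized logarithm is determined by the exponential identity. -/
theorem Cl_unique (hinj : Function.Injective (NormedSpace.exp : 𝒜' → 𝒜')) (E : 𝒜 →ₗ[ℝ] 𝒜')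
    (H : Finset P → 𝒜) (G : Finset P → 𝒜') {U : Finset P}
    (h : ∀ Λ ⊆ U, NormedSpace.exp (∑ X ∈ Λ.powerset, G X) =
      E (NormedSpace.exp (∑ X ∈ Λ.powerset, H X))) : Cl E H U = G U := by
  rw [Cl_eq_mu]
  exact mu_eq_of_sum fun Λ hΛ => by rw [← h Λ hΛ, lg_exp hinj]

omit [DecidableEq P] in
theorem p_neg (L : LocSys P 𝒜) (X : Finset P) (F : 𝒜) : L.p X (-F) = L.p X F := by
  have h := L.p_smul X (-1) F
  simpa using h

omit [DecidableEq P] in
theorem p_sub (L : LocSys P 𝒜) (X : Finset P) (F G : 𝒜) : L.p X (F - G) ≤ L.p X F + L.p X G := by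
  rw [sub_eq_add_neg, ← p_neg L X G]
  exact L.p_add _ _ _

/-- Pairs, with a weight on the difference. -/
noncomputable def pairS (L : LocSys P 𝒜) (r : ℝ) (hr : 1 ≤ r) : LocSys P (𝒜 × 𝒜) where
  sub X := (L.sub X).prod (L.sub X)
  p X F := L.p X F.1 + r * L.p X (F.2 - F.1)
  mono h := fun _ hF => ⟨L.mono h hF.1, L.mono h hF.2⟩
  p_nonneg X F := add_nonneg (L.p_nonneg _ _) (mul_nonneg (by linarith) (L.p_nonneg _ _))
  p_add X F G := by
    have h1 := L.p_add X F.1 G.1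
    have h2 := L.p_add X (F.2 - F.1) (G.2 - G.1)
    have h3 := mul_le_mul_of_nonneg_left h2 (by linarith : 0 ≤ r)
    rw [Prod.fst_add, Prod.snd_add,
      show F.2 + G.2 - (F.1 + G.1) = F.2 - F.1 + (G.2 - G.1) by ring]
    linarith
  p_smul X c F := by
    rw [Prod.smul_fst, Prod.smul_snd, ← smul_sub, L.p_smul, L.p_smul]
    ring
  p_mul X F G := by
    rw [Prod.fst_mul, Prod.snd_mul, show F.2 * G.2 - F.1 * G.1 =
      F.1 * (G.2 - G.1) + (F.2 - F.1) * G.1 + (F.2 - F.1) * (G.2 - G.1) by ring]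
    have h1 := L.p_mul X F.1 G.1
    have h2 := ((L.p_add X _ _).trans (add_le_add (L.p_add X _ _) le_rfl)).trans
      (add_le_add (add_le_add (L.p_mul X F.1 (G.2 - G.1)) (L.p_mul X (F.2 - F.1) G.1))
        (L.p_mul X (F.2 - F.1) (G.2 - G.1)))
    have h3 := mul_le_mul_of_nonneg_left h2 (by linarith : 0 ≤ r)
    have h4 : 0 ≤ r * (r - 1) * (L.p X (F.2 - F.1) * L.p X (G.2 - G.1)) :=
      mul_nonneg (mul_nonneg (by linarith) (by linarith))
        (mul_nonneg (L.p_nonneg _ _) (L.p_nonneg _ _))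
    nlinarith
  p_one X := by
    rw [Prod.fst_one, Prod.snd_one, sub_self, p_zero, mul_zero, add_zero]
    exact L.p_one X
  p_mono h hF := add_le_add (L.p_mono h hF.1)
    (mul_le_mul_of_nonneg_left (L.p_mono h (sub_mem hF.2 hF.1)) (by linarith))
  p_def {X F} hF h := by
    have h1 := L.p_nonneg X F.1
    have h2 := L.p_nonneg X (F.2 - F.1)
    have h3 : F.1 = 0 := L.p_def hF.1 (by nlinarith)
    have h4 : F.2 - F.1 = 0 := L.p_def (sub_mem hF.2 hF.1) (by nlinarith)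
    rw [h3, sub_zero] at h4
    exact Prod.ext h3 h4

theorem isExp_pair {Z : Size P} {L : LocSys P 𝒜} {L' : LocSys P 𝒜'} {κ : ℝ} {E : 𝒜 →ₗ[ℝ] 𝒜'}
    (hE : IsExp Z L L' κ E) (r : ℝ) (hr : 1 ≤ r) :
    IsExp Z (pairS L r hr) (pairS L' r hr) κ (E.prodMap E) where
  one := Prod.ext hE.one hE.one
  mem hF := ⟨hE.mem hF.1, hE.mem hF.2⟩
  le {X F} hF := by
    have h1 := hE.le hF.1
    have h2 := mul_le_mul_of_nonneg_left (hE.le (sub_mem hF.2 hF.1)) (by linarith : 0 ≤ r)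
    rw [map_sub] at h2
    change L'.p X (E F.1) + r * L'.p X (E F.2 - E F.1) ≤ _ * (L.p X F.1 + r * L.p X (F.2 - F.1))
    linarith
  mul hF hG h := Prod.ext (hE.mul hF.1 hG.1 h) (hE.mul hF.2 hG.2 h)

/-- The algebra of jets of order one at zero together with the value at one. -/
abbrev Tri (𝒜 : Type) : Type := TrivSqZeroExt 𝒜 𝒜 × 𝒜

/-- Jets, with weights `1`, `r`, `r ^ 2`. -/
noncomputable def triS (L : LocSys P 𝒜) (r : ℝ) (hr : 1 ≤ r) : LocSys P (Tri 𝒜) where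
  sub X :=
    { carrier := {F | F.1.fst ∈ L.sub X ∧ F.1.snd ∈ L.sub X ∧ F.2 ∈ L.sub X}
      mul_mem' := fun {F G} hF hG => ⟨mul_mem hF.1 hG.1, by
        rw [Prod.fst_mul, snd_mul, smul_eq_mul, op_smul_eq_mul]
        exact add_mem (mul_mem hF.1 hG.2.1) (mul_mem hF.2.1 hG.1), mul_mem hF.2.2 hG.2.2⟩
      add_mem' := fun {F G} hF hG => ⟨add_mem hF.1 hG.1, add_mem hF.2.1 hG.2.1,
        add_mem hF.2.2 hG.2.2⟩
      algebraMap_mem' := fun c => ⟨algebraMap_mem _ c, zero_mem _, algebraMap_mem _ c⟩ }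
  p X F := L.p X F.1.fst + r * L.p X F.1.snd + r ^ 2 * L.p X (F.2 - F.1.fst - F.1.snd)
  mono h := fun _ hF => ⟨L.mono h hF.1, L.mono h hF.2.1, L.mono h hF.2.2⟩
  p_nonneg X F := add_nonneg (add_nonneg (L.p_nonneg _ _)
    (mul_nonneg (by linarith) (L.p_nonneg _ _))) (mul_nonneg (sq_nonneg _) (L.p_nonneg _ _))
  p_add X F G := by
    have h1 := L.p_add X F.1.fst G.1.fst
    have h2 := mul_le_mul_of_nonneg_left (L.p_add X F.1.snd G.1.snd) (by linarith : 0 ≤ r)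
    have h3 := mul_le_mul_of_nonneg_left
      (L.p_add X (F.2 - F.1.fst - F.1.snd) (G.2 - G.1.fst - G.1.snd)) (sq_nonneg r)
    rw [Prod.fst_add, Prod.snd_add, fst_add, snd_add,
      show F.2 + G.2 - (F.1.fst + G.1.fst) - (F.1.snd + G.1.snd) =
        F.2 - F.1.fst - F.1.snd + (G.2 - G.1.fst - G.1.snd) by ring]
    linarith
  p_smul X c F := by
    rw [Prod.smul_fst, Prod.smul_snd, fst_smul, snd_smul, ← smul_sub, ← smul_sub, L.p_smul,
      L.p_smul, L.p_smul]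
    ring
  p_mul X F G := by
    rw [Prod.fst_mul, Prod.snd_mul, fst_mul, snd_mul, smul_eq_mul, op_smul_eq_mul]
    set a₀ := F.1.fst
    set a₁ := F.1.snd
    set b₀ := G.1.fst
    set b₁ := G.1.snd
    set a₂ := F.2 - a₀ - a₁ with ha
    set b₂ := G.2 - b₀ - b₁ with hb
    rw [show F.2 * G.2 - a₀ * b₀ - (a₀ * b₁ + a₁ * b₀) =
      a₀ * b₂ + a₁ * b₁ + a₂ * b₀ + (a₁ * b₂ + a₂ * b₁) + a₂ * b₂ by rw [ha, hb]; ring]
    have h0 := L.p_mul X a₀ b₀
    have h1 := mul_le_mul_of_nonneg_left ((L.p_add X _ _).trans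
      (add_le_add (L.p_mul X a₀ b₁) (L.p_mul X a₁ b₀))) (by linarith : 0 ≤ r)
    have h2 := mul_le_mul_of_nonneg_left ((L.p_add X _ _).trans (add_le_add ((L.p_add X _ _).trans
      (add_le_add ((L.p_add X _ _).trans (add_le_add ((L.p_add X _ _).trans
        (add_le_add (L.p_mul X a₀ b₂) (L.p_mul X a₁ b₁))) (L.p_mul X a₂ b₀)))
        ((L.p_add X _ _).trans (add_le_add (L.p_mul X a₁ b₂) (L.p_mul X a₂ b₁)))))
      (L.p_mul X a₂ b₂))) (sq_nonneg r)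
    have h3 : 0 ≤ r ^ 2 * (r - 1) * (L.p X a₁ * L.p X b₂ + L.p X a₂ * L.p X b₁) :=
      mul_nonneg (mul_nonneg (sq_nonneg _) (by linarith))
        (add_nonneg (mul_nonneg (L.p_nonneg _ _) (L.p_nonneg _ _))
          (mul_nonneg (L.p_nonneg _ _) (L.p_nonneg _ _)))
    have h4 : 0 ≤ r ^ 2 * (r ^ 2 - 1) * (L.p X a₂ * L.p X b₂) :=
      mul_nonneg (mul_nonneg (sq_nonneg _) (by nlinarith))
        (mul_nonneg (L.p_nonneg _ _) (L.p_nonneg _ _))
    linarith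
  p_one X := by
    rw [Prod.fst_one, Prod.snd_one, fst_one, snd_one, sub_self, sub_self, p_zero, mul_zero,
      mul_zero, add_zero, add_zero]
    exact L.p_one X
  p_mono h hF := add_le_add (add_le_add (L.p_mono h hF.1)
    (mul_le_mul_of_nonneg_left (L.p_mono h hF.2.1) (by linarith)))
    (mul_le_mul_of_nonneg_left (L.p_mono h (sub_mem (sub_mem hF.2.2 hF.1) hF.2.1)) (sq_nonneg _))
  p_def {X F} hF h := by
    have h1 := L.p_nonneg X F.1.fst
    have h2 := mul_nonneg (by linarith : 0 ≤ r) (L.p_nonneg X F.1.snd)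
    have h3 := mul_nonneg (sq_nonneg r) (L.p_nonneg X (F.2 - F.1.fst - F.1.snd))
    have hr0 : r ≠ 0 := by linarith
    have h4 : F.1.fst = 0 := L.p_def hF.1 (by linarith)
    have h5 : F.1.snd = 0 := L.p_def hF.2.1
      ((mul_eq_zero.1 (by linarith : r * L.p X F.1.snd = 0)).resolve_left hr0)
    have h6 : F.2 - F.1.fst - F.1.snd = 0 := L.p_def (sub_mem (sub_mem hF.2.2 hF.1) hF.2.1)
      ((mul_eq_zero.1 (by linarith : r ^ 2 * L.p X (F.2 - F.1.fst - F.1.snd) = 0)).resolve_left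
        (pow_ne_zero 2 hr0))
    rw [h4, h5, sub_zero, sub_zero] at h6
    exact Prod.ext (TrivSqZeroExt.ext h4 h5) h6

/-- A linear map acting on both components of a dual number. -/
noncomputable def dualE (E : 𝒜 →ₗ[ℝ] 𝒜') : TrivSqZeroExt 𝒜 𝒜 →ₗ[ℝ] TrivSqZeroExt 𝒜' 𝒜' where
  toFun F := (E F.fst, E F.snd)
  map_add' _ _ := TrivSqZeroExt.ext (E.map_add _ _) (E.map_add _ _)
  map_smul' _ _ := TrivSqZeroExt.ext (E.map_smul _ _) (E.map_smul _ _)

theorem isExp_tri {Z : Size P} {L : LocSys P 𝒜} {L' : LocSys P 𝒜'} {κ : ℝ} {E : 𝒜 →ₗ[ℝ] 𝒜'}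
    (hE : IsExp Z L L' κ E) (r : ℝ) (hr : 1 ≤ r) :
    IsExp Z (triS L r hr) (triS L' r hr) κ ((dualE E).prodMap E) where
  one := Prod.ext (TrivSqZeroExt.ext hE.one E.map_zero) hE.one
  mem hF := ⟨hE.mem hF.1, hE.mem hF.2.1, hE.mem hF.2.2⟩
  le {X F} hF := by
    have h1 := hE.le hF.1
    have h2 := mul_le_mul_of_nonneg_left (hE.le hF.2.1) (by linarith : 0 ≤ r)
    have h3 := mul_le_mul_of_nonneg_left (hE.le (sub_mem (sub_mem hF.2.2 hF.1) hF.2.1))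
      (sq_nonneg r)
    rw [map_sub, map_sub] at h3
    change L'.p X (E F.1.fst) + r * L'.p X (E F.1.snd) +
      r ^ 2 * L'.p X (E F.2 - E F.1.fst - E F.1.snd) ≤
      _ * (L.p X F.1.fst + r * L.p X F.1.snd + r ^ 2 * L.p X (F.2 - F.1.fst - F.1.snd))
    linarith
  mul {X Y F G} hF hG h := by
    refine Prod.ext (TrivSqZeroExt.ext (hE.mul hF.1 hG.1 h) ?_) (hE.mul hF.2.2 hG.2.2 h)
    change E (F.1 * G.1).snd = ((dualE E F.1) * (dualE E G.1)).snd
    rw [snd_mul, snd_mul, smul_eq_mul, op_smul_eq_mul, smul_eq_mul, op_smul_eq_mul, map_add,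
      hE.mul hF.1 hG.2.1 h, hE.mul hF.2.1 hG.1 h]
    rfl

instance [FiniteDimensional ℝ 𝒜] : FiniteDimensional ℝ (TrivSqZeroExt 𝒜 𝒜) :=
  inferInstanceAs (FiniteDimensional ℝ (𝒜 × 𝒜))

theorem exp_prod {ℬ : Type} [NormedCommRing ℬ] [NormedAlgebra ℝ ℬ] [CompleteSpace 𝒜]
    [CompleteSpace ℬ] (x : 𝒜 × ℬ) :
    NormedSpace.exp x = (NormedSpace.exp x.1, NormedSpace.exp x.2) :=
  Prod.ext (map_exp' (AlgHom.fst ℝ 𝒜 ℬ) continuous_fst x)
    (map_exp' (AlgHom.snd ℝ 𝒜 ℬ) continuous_snd x)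

theorem inj_prod {ℬ : Type} [NormedCommRing ℬ] [NormedAlgebra ℝ ℬ] [CompleteSpace 𝒜]
    [CompleteSpace ℬ] (h : Function.Injective (NormedSpace.exp : 𝒜 → 𝒜))
    (h' : Function.Injective (NormedSpace.exp : ℬ → ℬ)) :
    Function.Injective (NormedSpace.exp : 𝒜 × ℬ → 𝒜 × ℬ) := by
  intro x y hxy
  rw [exp_prod, exp_prod, Prod.mk.injEq] at hxy
  exact Prod.ext (h hxy.1) (h' hxy.2)

theorem inj_dual [CompleteSpace 𝒜] (h : Function.Injective (NormedSpace.exp : 𝒜 → 𝒜)) :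
    Function.Injective (NormedSpace.exp : TrivSqZeroExt 𝒜 𝒜 → TrivSqZeroExt 𝒜 𝒜) := by
  let _ : NormedAlgebra ℚ 𝒜 := NormedAlgebra.restrictScalars ℚ ℝ 𝒜
  intro x y hxy
  have h1 := congrArg fst hxy
  have h2 := congrArg snd hxy
  rw [fst_exp, fst_exp] at h1
  rw [snd_exp, snd_exp, h1, smul_eq_mul, smul_eq_mul] at h2
  exact TrivSqZeroExt.ext (h h1) ((isUnit_exp' y.fst).mul_left_cancel h2)

theorem exp_inr' (x : 𝒜) : NormedSpace.exp (inr x : TrivSqZeroExt 𝒜 𝒜) = 1 + inr x := by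
  let _ : NormedAlgebra ℚ 𝒜 := NormedAlgebra.restrictScalars ℚ ℝ 𝒜
  exact exp_inr x

/-- The statement of the cluster expansion, for all algebras. -/
def ClMain (P : Type) [Fintype P] [DecidableEq P] : Prop :=
  ∀ (𝒜 𝒜' : Type) [NormedCommRing 𝒜] [NormedAlgebra ℝ 𝒜] [FiniteDimensional ℝ 𝒜]
    [NormedCommRing 𝒜'] [NormedAlgebra ℝ 𝒜'] [FiniteDimensional ℝ 𝒜']
    (_ : Function.Injective (NormedSpace.exp : 𝒜' → 𝒜')) (Z : Size P)
    (L : LocSys P 𝒜) (L' : LocSys P 𝒜') (κ τ ε : ℝ) (_ : 0 ≤ κ) (_ : 0 ≤ τ)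
    (E : 𝒜 →ₗ[ℝ] 𝒜') (_ : IsExp Z L L' κ E) (H : Finset P → 𝒜) (_ : H ∅ = 0)
    (_ : ∀ X, H X ∈ L.sub X) (_ : ε ≤ 1 / 16)
    (_ : Z.Le (τ + κ + 2) (fun X => L.p X (H X)) ε),
    Cl E H ∅ = 0 ∧ (∀ U, Cl E H U ∈ L'.sub U) ∧ Z.Le τ (fun U => L'.p U (Cl E H U)) (4 * ε) ∧
      ∀ Λ : Finset P, NormedSpace.exp (∑ U ∈ Λ.powerset, Cl E H U) =
        E (NormedSpace.exp (∑ X ∈ Λ.powerset, H X))

variable [Fintype P]

theorem le_nonneg {Z : Size P} {τ ε : ℝ} {f : Finset P → ℝ} (hf : ∀ X, 0 ≤ f X)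
    (h : Z.Le τ f ε) : 0 ≤ ε :=
  nonneg_of_mul_nonneg_left (le_trans (sum_nonneg fun X _ => mul_nonneg (hf X) (Real.exp_pos _).le)
    (h ∅)) (zero_lt_one.trans_le (Z.one_le ∅))

open Classical in
theorem eq_zero_of_le {Z : Size P} {L : LocSys P 𝒜} {τ : ℝ} {H : Finset P → 𝒜} (h0 : H ∅ = 0)
    (hH : ∀ X, H X ∈ L.sub X) (h : Z.Le τ (fun X => L.p X (H X)) 0) (X : Finset P) : H X = 0 := by
  rcases X.eq_empty_or_nonempty with rfl | ⟨x, hx⟩
  · exact h0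
  have h1 := le_trans (single_le_sum (f := fun Y => L.p Y (H Y) * Real.exp (τ * Z.sz Y))
    (fun Y _ => mul_nonneg (L.p_nonneg _ _) (Real.exp_pos _).le)
    (mem_filter.2 ⟨mem_univ X, x, hx, x, hx, Z.refl x⟩)) (h X)
  rw [zero_mul] at h1
  exact L.p_def (hH X) (le_antisymm (nonpos_of_mul_nonpos_left h1 (Real.exp_pos _))
    (L.p_nonneg _ _))

theorem cl_rem_of [FiniteDimensional ℝ 𝒜] [FiniteDimensional ℝ 𝒜'] (hmain : ClMain P)
    (hinj : Function.Injective (NormedSpace.exp : 𝒜' → 𝒜')) (Z : Size P)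
    (L : LocSys P 𝒜) (L' : LocSys P 𝒜') {κ τ ε ε' : ℝ} (hκ : 0 ≤ κ) (hτ : 0 ≤ τ)
    {E : 𝒜 →ₗ[ℝ] 𝒜'} (hE : IsExp Z L L' κ E) {H H' : Finset P → 𝒜} (h0 : H ∅ = 0)
    (h0' : H' ∅ = 0) (hH : ∀ X, H X ∈ L.sub X) (hH' : ∀ X, H' X ∈ L.sub X) (hε : ε ≤ 1 / 48)
    (hle : Z.Le (τ + κ + 2) (fun X => L.p X (H X)) ε)
    (hle' : Z.Le (τ + κ + 2) (fun X => L.p X (H' X)) ε)
    (hd : Z.Le (τ + κ + 2) (fun X => L.p X (H X - H' X)) ε') :
    Z.Le τ (fun U => L'.p U ((Cl E H U - E (H U)) - (Cl E H' U - E (H' U)))) (1000 * ε * ε') := by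
  classical
  have : CompleteSpace 𝒜 := FiniteDimensional.complete ℝ 𝒜
  have : CompleteSpace 𝒜' := FiniteDimensional.complete ℝ 𝒜'
  have hε0 : 0 ≤ ε := le_nonneg (fun X => L.p_nonneg _ _) hle
  have hε0' : 0 ≤ ε' := le_nonneg (fun X => L.p_nonneg _ _) hd
  have hsz : ∀ Y, 0 ≤ Z.sz Y := fun Y => zero_le_one.trans (Z.one_le Y)
  have hd2 : Z.Le (τ + κ + 2) (fun X => L.p X (H X - H' X)) (min ε' (2 * ε)) := by
    intro Y
    rw [min_mul_of_nonneg _ _ (hsz Y)]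
    refine le_min (hd Y) (le_trans (sum_le_sum fun X _ =>
      mul_le_mul_of_nonneg_right (p_sub L X _ _) (Real.exp_pos _).le) ?_)
    have h1 := hle Y
    have h2 := hle' Y
    simp only [add_mul, sum_add_distrib] at h1 h2 ⊢
    linarith
  set e := min ε' (2 * ε) with he
  have he0 : 0 ≤ e := le_min hε0' (by linarith)
  rcases he0.eq_or_lt with he1 | he1
  · rw [← he1] at hd2
    have h1 : H = H' := funext fun X => sub_eq_zero.1 (eq_zero_of_le (H := fun X => H X - H' X)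
      (by rw [h0, h0', sub_self]) (fun X => sub_mem (hH X) (hH' X)) hd2 X)
    intro Y
    simp only [h1, sub_self, p_zero, zero_mul, sum_const_zero]
    exact mul_nonneg (by positivity) (hsz Y)
  have he2 : e ≤ 2 * ε := min_le_right _ _
  have he3 : e ≤ ε' := min_le_left _ _
  have hεp : 0 < ε := by linarith
  have hz : 1 ≤ 1 / (48 * ε) := by rw [le_div_iff₀ (by positivity)]; linarith
  have hw : 1 ≤ max 1 (ε / e) := le_max_left _ _
  set rz := 1 / (48 * ε) with hrz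
  set rw := max 1 (ε / e) with hrw
  have hinj₁ := inj_dual hinj
  have hinj₂ := inj_prod hinj₁ hinj
  let K : Finset P → Tri 𝒜 × Tri 𝒜 := fun X => ((inr (H' X), H' X), (inr (H X), H X))
  have hK : ∀ X, (pairS (triS L rz hz) rw hw).p X (K X) =
      rz * L.p X (H' X) + rw * rz * L.p X (H X - H' X) := by
    intro X
    simp only [pairS, triS, K, Prod.fst_sub, Prod.snd_sub, fst_sub, snd_sub, fst_inr, snd_inr,
      sub_zero, sub_self, p_zero]
    ring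
  obtain ⟨-, -, h3, h4⟩ := hmain (Tri 𝒜 × Tri 𝒜) (Tri 𝒜' × Tri 𝒜') (inj_prod hinj₂ hinj₂) Z
    (pairS (triS L rz hz) rw hw) (pairS (triS L' rz hz) rw hw) κ τ (1 / 16) hκ hτ _
    (isExp_pair (isExp_tri hE rz hz) rw hw) K (by simp only [K, h0, h0', inr_zero]; rfl)
    (fun X => ⟨⟨zero_mem _, hH' X, hH' X⟩, ⟨zero_mem _, hH X, hH X⟩⟩) le_rfl (by
      intro Y
      simp only [hK, add_mul, sum_add_distrib, mul_assoc, ← mul_sum]
      have h1 : rw * e ≤ 2 * ε := by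
        rw [hrw, max_mul_of_nonneg _ _ he0, one_mul, div_mul_cancel₀ _ he1.ne']
        exact max_le he2 (by linarith)
      have h2 := mul_le_mul_of_nonneg_left (hle' Y) (by linarith : 0 ≤ rz)
      have h3 := mul_le_mul_of_nonneg_left (mul_le_mul_of_nonneg_left (hd2 Y)
        (by linarith : 0 ≤ rz)) (by linarith : 0 ≤ rw)
      have h4 : rz * ε = 1 / 48 := by rw [hrz]; field_simp
      have h5 : rw * (rz * (e * Z.sz Y)) ≤ 2 * (rz * ε) * Z.sz Y := by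
        have := mul_le_mul_of_nonneg_right h1 (mul_nonneg (by linarith : 0 ≤ rz) (hsz Y))
        linarith
      simp only [add_mul] at h2 h3
      rw [← mul_assoc, h4] at h2
      rw [h4] at h5
      linarith)
  set G := Cl (𝒜' := Tri 𝒜' × Tri 𝒜') (((dualE E).prodMap E).prodMap ((dualE E).prodMap E)) K
    with hG
  have h5 : ∀ Λ : Finset P,
      (NormedSpace.exp (∑ U ∈ Λ.powerset, (G U).1.1) = 1 + inr (E (∑ X ∈ Λ.powerset, H' X)) ∧
      NormedSpace.exp (∑ U ∈ Λ.powerset, (G U).1.2) = E (NormedSpace.exp (∑ X ∈ Λ.powerset, H' X)))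
      ∧ (NormedSpace.exp (∑ U ∈ Λ.powerset, (G U).2.1) = 1 + inr (E (∑ X ∈ Λ.powerset, H X)) ∧
      NormedSpace.exp (∑ U ∈ Λ.powerset, (G U).2.2) =
        E (NormedSpace.exp (∑ X ∈ Λ.powerset, H X))) := by
    intro Λ
    have h := h4 Λ
    have h6 : ∀ x : 𝒜, dualE E (1 + inr x) = 1 + inr (E x) := fun x => by
      refine TrivSqZeroExt.ext ?_ ?_
      · change E (1 + inr x : TrivSqZeroExt 𝒜 𝒜).fst = _
        rw [fst_add, fst_add, fst_one, fst_one, fst_inr, fst_inr, add_zero, add_zero, hE.one]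
      · change E (1 + inr x : TrivSqZeroExt 𝒜 𝒜).snd = _
        rw [snd_add, snd_add, snd_one, snd_one, snd_inr, snd_inr, zero_add, zero_add]
    simp only [exp_prod, Prod.fst_sum, Prod.snd_sum, K, LinearMap.prodMap_apply, ← inr_sum,
      exp_inr', h6, Prod.mk.injEq] at h
    exact h
  have h7 : ∀ (g : Finset P → TrivSqZeroExt 𝒜' 𝒜') (J : Finset P → 𝒜),
      (∀ Λ : Finset P, NormedSpace.exp (∑ U ∈ Λ.powerset, g U) =
        1 + inr (E (∑ X ∈ Λ.powerset, J X))) → ∀ U, g U = inr (E (J U)) := by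
    intro g J h U
    have h8 : ∀ Λ : Finset P, ∑ U ∈ Λ.powerset, g U = ∑ X ∈ Λ.powerset, inr (E (J X)) := fun Λ =>
      hinj₁ (by rw [h, ← inr_sum, exp_inr', map_sum])
    rw [← mu_eq_of_sum (G := fun Λ => ∑ U ∈ Λ.powerset, g U) (h := g) fun _ _ => rfl,
      mu_eq_of_sum fun Λ _ => (h8 Λ).symm]
  have h9 : ∀ U, rw * rz ^ 2 * L'.p U ((Cl E H U - E (H U)) - (Cl E H' U - E (H' U))) ≤
      (pairS (triS L' rz hz) rw hw).p U (G U) := by
    intro U
    have a1 := h7 _ _ (fun Λ => (h5 Λ).1.1) U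
    have a2 := Cl_unique hinj E H' _ (U := U) fun Λ _ => (h5 Λ).1.2
    have a3 := h7 _ _ (fun Λ => (h5 Λ).2.1) U
    have a4 := Cl_unique hinj E H _ (U := U) fun Λ _ => (h5 Λ).2.2
    have a5 := (triS L' rz hz).p_nonneg U (G U).1
    have a6 := mul_nonneg (by linarith : 0 ≤ rw) (mul_nonneg (by linarith : 0 ≤ rz)
      (L'.p_nonneg U (E (H U) - E (H' U))))
    change _ ≤ (triS L' rz hz).p U (G U).1 + rw * (L'.p U ((G U).2.1 - (G U).1.1).fst +
      rz * L'.p U ((G U).2.1 - (G U).1.1).snd + rz ^ 2 * L'.p U ((G U).2.2 - (G U).1.2 -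
        ((G U).2.1 - (G U).1.1).fst - ((G U).2.1 - (G U).1.1).snd))
    rw [a1, a3, ← a2, ← a4, fst_sub, snd_sub, fst_inr, fst_inr, snd_inr, snd_inr, sub_self, p_zero,
      sub_zero, show Cl E H U - Cl E H' U - (E (H U) - E (H' U)) =
        (Cl E H U - E (H U)) - (Cl E H' U - E (H' U)) by ring]
    linarith
  intro Y
  have h10 := le_trans (sum_le_sum fun U _ =>
    mul_le_mul_of_nonneg_right (h9 U) (Real.exp_pos _).le) (h3 Y)
  simp only [mul_assoc, ← mul_sum] at h10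
  have h11 : 1 / 4 ≤ rw * (rz ^ 2 * (1000 * ε * ε')) := by
    have b1 : ε ≤ rw * e := by
      have := mul_le_mul_of_nonneg_right (le_max_right 1 (ε / e)) he0
      rwa [div_mul_cancel₀ _ he1.ne'] at this
    have b2 : rz ^ 2 * ε ^ 2 = 1 / 48 ^ 2 := by rw [hrz]; field_simp
    have b3 : ε ≤ rw * ε' := b1.trans (mul_le_mul_of_nonneg_left he3 (by linarith))
    have b4 := mul_le_mul_of_nonneg_left b3 (by positivity : 0 ≤ rz ^ 2 * (1000 * ε))
    nlinarith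
  have h12 := mul_le_mul_of_nonneg_right h11 (hsz Y)
  have hpos : 0 < rw * rz ^ 2 := by positivity
  refine le_of_mul_le_mul_left ?_ hpos
  rw [mul_assoc]
  linarith

end Vale.Agent.P144Z.B4
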